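import Vale.Agent.P032W.H357.Sys3
import Vale.Agent.P032W.H820.OneEv

/-!
# P032: the rules of one time from the lattice facts

`oneEv_of_sys : Sys s t D -> OneEv ..` : the abstract rules of `OneEv` follow from the structure `Sys`.
-/

namespace Vale.Agent.P032.H820

open Vale.Agent.P032.H892 Vale.Agent.P032.H357

/-- residue modulo six -/
def fi (n : ℕ) : Fin 6 := ⟨n % 6, Nat.mod_lt _ (by norm_num)⟩

/-- germ -/
def fg (n : ℕ) : Fin 24 := ⟨n % 24, Nat.mod_lt _ (by norm_num)⟩

/-- coordinates of the points -/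
def cd (i : ℕ) : ℤ × ℤ :=
  if i = 0 then 0 else if i < 7 then stp (fi (i - 1))
  else if i < 13 then stp (fi (i - 7)) + stp (fi (i - 7))
  else stp (fi (i - 13)) + stp (fi (i - 12))

theorem cd_nb : ∀ i < 19, ∀ d < 6, ∀ j, nb i d = some j → cd j = cd i + stp (fi d) := by
  decide +kernel

theorem inside_eq : ∀ g < 24, ∀ d < 12, inside g d = ins (fg g) (fi d) := by
  decide +kernel

theorem fi_add (d : ℕ) : fi (d + 3) = fi d + 3 := by
  apply Fin.ext
  rw [Fin.val_add]
  unfold fi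
  simp only
  have : ((3 : Fin 6) : ℕ) = 3 := rfl
  rw [this]; omega

theorem fg_inj : ∀ g < 24, ∀ g' < 24, g = g' → fg g = fg g' := by
  intro g _ g' _ h; rw [h]

theorem arcin_eq : ∀ k < 6, ∀ d < 6, (arcin k d true = insA true (fi k) (fi d)) ∧
    (arcin k d false = insA false (fi k) (fi d)) := by
  decide +kernel

theorem cd_one : ∀ k < 6, cd (1 + k) = stp (fi k) := by
  decide +kernel

theorem fi_ne : ∀ k < 6, ∀ d < 6, d ≠ (k + 3) % 6 → fi d ≠ fi k + 3 := by
  decide +kernel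

theorem tanx_sub : ∀ k < 6, ∀ g < 24, (tanx k g true = true → tanc true (fi k) (fg g) = true) ∧
    (tanx k g false = true → tanc false (fi k) (fg g) = true) := by
  decide +kernel

theorem gang_even : ∀ g < 24, g < 6 → ang (fg g) = 2 * (fi g).val := by
  decide +kernel

theorem gang_odd : ∀ g < 24, ¬ g < 6 → ang (fg g) = 2 * (fi ((g - 6) / 3)).val + 1 := by
  decide +kernel

theorem gang_eq : ∀ g < 24, gang g = ang (fg g) := by
  decide +kernel

/-- sectors of an inner letter -/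
theorem okIn_sec : ∀ k j : Fin 6, ∀ h : Hu, okIn k h → secIn j h → j = k ∨ j + 1 = k ∨ j + 2 = k := by
  decide +kernel

/-- sectors of an outer letter -/
theorem okOut_sec : ∀ k j : Fin 6, ∀ h : Hu, okOut k h → secIn j h →
    j = k + 1 ∨ j = k + 2 ∨ j = k + 3 := by
  decide +kernel

theorem okIn_win : ∀ k < 6, ∀ h : Hu, okIn (fi k) h → winI k h.1.val = true := by
  decide +kernel

theorem okOut_win : ∀ k < 6, ∀ h : Hu, okOut (fi k) h → winO k h.1.val = true := by
  decide +kernel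

theorem sec_win : ∀ m < 29, ∀ h : Hu, secIn (fi m) h → win m h.1.val = true := by
  decide +kernel

theorem pred_fi : ∀ g < 6, fi g - 1 = fi (g + 5) := by
  decide +kernel

/-- the germs excluded for an inner letter before -/
theorem ruleIL : ∀ k < 6, ∀ g < 24, (3 ≤ rel (gang g) k ∧ rel (gang g) k ≤ 8) →
    if g < 6 then ¬ (fi g - 1 = fi k ∨ fi g - 1 + 1 = fi k ∨ fi g - 1 + 2 = fi k) else
      ¬ (fi ((g - 6) / 3) = fi k ∨ fi ((g - 6) / 3) + 1 = fi k ∨ fi ((g - 6) / 3) + 2 = fi k) := by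
  decide +kernel

/-- the germs excluded for an inner letter after -/
theorem ruleIR : ∀ k < 6, ∀ g < 24, (4 ≤ rel (gang g) k ∧ rel (gang g) k ≤ 9) →
    if g < 6 then ¬ (fi g - 1 = fi k ∨ fi g - 1 + 1 = fi k ∨ fi g - 1 + 2 = fi k) else
      ¬ (fi ((g - 6) / 3) - 1 = fi k ∨ fi ((g - 6) / 3) - 1 + 1 = fi k ∨
        fi ((g - 6) / 3) - 1 + 2 = fi k) := by
  decide +kernel

/-- the germs excluded for an outer letter before -/
theorem ruleOL : ∀ k < 6, ∀ g < 24, (9 ≤ rel (gang g) k ∨ rel (gang g) k ≤ 2) →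
    if g < 6 then ¬ (fi g - 1 = fi k + 1 ∨ fi g - 1 = fi k + 2 ∨ fi g - 1 = fi k + 3) else
      ¬ (fi ((g - 6) / 3) = fi k + 1 ∨ fi ((g - 6) / 3) = fi k + 2 ∨
        fi ((g - 6) / 3) = fi k + 3) := by
  decide +kernel

/-- the germs excluded for an outer letter after -/
theorem ruleOR : ∀ k < 6, ∀ g < 24, (10 ≤ rel (gang g) k ∨ rel (gang g) k ≤ 3) →
    if g < 6 then ¬ (fi g - 1 = fi k + 1 ∨ fi g - 1 = fi k + 2 ∨ fi g - 1 = fi k + 3) else
      ¬ (fi ((g - 6) / 3) - 1 = fi k + 1 ∨ fi ((g - 6) / 3) - 1 = fi k + 2 ∨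
        fi ((g - 6) / 3) - 1 = fi k + 3) := by
  decide +kernel

/-- the left end after the event -/
theorem step_pr {a b : Fin 6} (h : b = a ∨ b + 1 = a) : b.val = pr a.val (decide (b ≠ a)) := by
  revert a b; decide +kernel

section

variable {s t : St6} {D : ℤ × ℤ → Fin 24 → Fin 6 → Prop}

/-- the sectors at a germ, before and after -/
theorem sys_sec (S : Sys s t D) {g : ℕ} (hg : g < 24) {c : Fin 6} (h : D 0 (fg g) c) :
    if g < 6 then secIn (fi g - 1) (s.2 c) ∧ secIn (fi g - 1) (t.2 c)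
    else secIn (fi ((g - 6) / 3)) (s.2 c) ∧ secIn (fi ((g - 6) / 3) - 1) (t.2 c) := by
  split_ifs with h6
  · exact S.hullS (fg g) (fi g) c (gang_even g hg h6) h
  · exact S.hullT (fg g) (fi ((g - 6) / 3)) c (gang_odd g hg h6) h

/-- **The bridge.** -/
theorem oneEv_of_sys (S : Sys s t D) :
    OneEv (fun k => (s.1 (fi k)).1) (fun k => (s.1 (fi k)).2) (fun k => (t.1 (fi k)).1)
      (fun k => (t.1 (fi k)).2) (fun c => (s.2 c).1.val)
      (fun c => decide ((t.2 c).1 ≠ (s.2 c).1)) (fun i g c => D (cd i) (fg g) c) where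
  plt c := (s.2 c).1.isLt
  ne i _ g _ := S.ne (cd i) (fg g)
  r1 i hi d hd g hg g' hg' j hj h c hc := by
    rw [cd_nb i hi d hd j hj] at hc
    refine S.r1 (cd i) (fi d) (fg g) (fg g') c ?_ hc
    rcases h with h | h
    · left
      rw [inside_eq g hg d (by omega), inside_eq g' hg' (d + 3) (by omega), fi_add] at h
      exact h
    · right; rw [h]
  r2 k hk d hd hdk q hq g hg := by
    have e := cd_nb (1 + k) (by omega) d hd q hq
    rw [cd_one k hk] at e
    obtain ⟨a1, a2⟩ := arcin_eq k hk d hd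
    have hi : inside g (d + 3) = ins (fg g) (fi d + 3) := by rw [inside_eq g hg _ (by omega), fi_add]
    refine ⟨fun h => ?_, fun h => ?_⟩
    · rw [a2, hi] at h
      simp only [e]
      exact ⟨S.arcL _ _ _ _ (fi_ne k hk d hd hdk) (Or.inl rfl) h,
        S.arcL _ _ _ _ (fi_ne k hk d hd hdk) (Or.inr rfl) h⟩
    · rw [a1, hi] at h
      simp only [e]
      exact ⟨S.arcR _ _ _ _ (fi_ne k hk d hd hdk) (Or.inl rfl) h,
        S.arcR _ _ _ _ (fi_ne k hk d hd hdk) (Or.inr rfl) h⟩
  r2z k hk g hg := by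
    obtain ⟨a1, a2⟩ := tanx_sub k hk g hg
    exact ⟨fun h => ⟨S.tanL _ _ _ (Or.inl rfl) (a2 h), S.tanL _ _ _ (Or.inr rfl) (a2 h)⟩,
      fun h => ⟨S.tanR _ _ _ (Or.inl rfl) (a1 h), S.tanR _ _ _ (Or.inr rfl) (a1 h)⟩⟩
  ct k hk g hg := by
    have e := cd_one k hk
    have hi : inside g (k + 3) = ins (fg g) (fi k + 3) := by rw [inside_eq g hg _ (by omega), fi_add]
    simp only [e]
    refine ⟨fun h => ?_, fun h => ?_⟩
    · rw [hi] at h
      exact ⟨S.ctI _ _ _ (Or.inl rfl) h, S.ctI _ _ _ (Or.inr rfl) h⟩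
    · rw [hi] at h
      exact ⟨S.ctO _ _ _ (Or.inl rfl) h, S.ctO _ _ _ (Or.inr rfl) h⟩
  hp k hk g hg := by
    refine ⟨fun h1 h2 hD => ?_, fun h1 h2 hD => ?_, fun h1 hD => ?_, fun h1 hD => ?_⟩
    · have a := ruleIL k hk g hg ⟨h1, h2⟩
      have b := sys_sec S hg hD
      split_ifs at a b with h6
      · exact a (okIn_sec _ _ _ (S.statL.win_in (fi k)) b.1)
      · exact a (okIn_sec _ _ _ (S.statL.win_in (fi k)) b.1)
    · have a := ruleIR k hk g hg ⟨h1, h2⟩
      have b := sys_sec S hg hD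
      split_ifs at a b with h6
      · exact a (okIn_sec _ _ _ (S.statR.win_in (fi k)) b.2)
      · exact a (okIn_sec _ _ _ (S.statR.win_in (fi k)) b.2)
    · have a := ruleOL k hk g hg h1
      have b := sys_sec S hg hD
      split_ifs at a b with h6
      · exact a (okOut_sec _ _ _ (S.statL.win_out (fi k)) b.1)
      · exact a (okOut_sec _ _ _ (S.statL.win_out (fi k)) b.1)
    · have a := ruleOR k hk g hg h1
      have b := sys_sec S hg hD
      split_ifs at a b with h6
      · exact a (okOut_sec _ _ _ (S.statR.win_out (fi k)) b.2)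
      · exact a (okOut_sec _ _ _ (S.statR.win_out (fi k)) b.2)
  hull g hg c hD := by
    have b := sys_sec S hg hD
    have hs : (t.2 c).1.val = pr (s.2 c).1.val (decide ((t.2 c).1 ≠ (s.2 c).1)) :=
      step_pr (S.stepP c)
    unfold hullok
    split_ifs at b ⊢ with h6
    · rw [pred_fi g h6] at b
      rw [Bool.and_eq_true, ← hs]
      exact ⟨sec_win _ (by omega) _ b.1, sec_win _ (by omega) _ b.2⟩
    · rw [pred_fi ((g - 6) / 3) (by omega)] at b
      rw [Bool.and_eq_true, ← hs]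
      exact ⟨sec_win _ (by omega) _ b.1, sec_win _ (by omega) _ b.2⟩
  need c hc := by
    have h1 : (t.2 c).1 = (s.2 c).1 := by simpa using hc
    refine S.mustP _ c h1 ?_
    have : ∀ a : Fin 6, ang (fg ((a.val + 1) % 6)) = 2 * (a + 1 : Fin 6).val := by decide +kernel
    exact this _
  io k _ := S.statR.two (fi k)
  sixty k hk := by
    have e : ∀ k < 6, fi ((k + 1) % 6) = fi k + 1 := by decide +kernel
    simp only [e k hk]
    exact S.statR.sixty (fi k)
  swap k _ := S.swap (fi k)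
  wI k hk := by
    have h := okIn_win k hk _ (S.statR.win_in (fi k))
    rw [step_pr (S.stepP (t.1 (fi k)).1)] at h
    exact h
  wO k hk := by
    have h := okOut_win k hk _ (S.statR.win_out (fi k))
    rw [step_pr (S.stepP (t.1 (fi k)).2)] at h
    exact h

end

end Vale.Agent.P032.H820
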