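import Vale.Agent.P032W.H820.Dx

/-!
# P032: the half plane of a colour

`Ctn U T z` : every point `w` of colour `c` near `z` is joined to `z` inside the closure of `U c`
(in the map setting: the closed faces are connected, and only the faces at `z` come near `z`).

* `Irr.one_side` : if `V` is a `c`-partner of `z` then all points of colour `c` near `z` are on one
  closed side of `S(V)`,
* `Irr.half_plane`, `Irr.half_plane_dir` : so the directions of every colour `c` at a point of `XX`
  lie in a closed half plane,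
* `Irr.hull_free` : directions between two directions of the colour `c`, less than `180` degrees
  apart, are free for `c`.
-/

open Set Filter Topology Metric

noncomputable section

namespace Vale.Agent.P032.Six

variable {k : ℕ} {U : Fin k → Set ℂ} {T : ℂ → Set (Fin k)}

/-- all points of colour `c` near `z` are joined to `z` inside the closure of `U c` -/
def Ctn (U : Fin k → Set ℂ) (T : ℂ → Set (Fin k)) (z : ℂ) : Prop :=
  ∀ᶠ w in 𝓝 z, ∀ c ∈ T w, ∃ Q ⊆ closure (U c), IsPreconnected Q ∧ z ∈ Q ∧ w ∈ Q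

/-- all points of colour `c` near `z` are on one closed side of the unit circle about a
`c`-partner -/
theorem Irr.one_side (h : Irr U T) {z V : ℂ} {c : Fin k} (hct : Ctn U T z) (hV : c ∈ Pal U V) :
    (∀ᶠ w in 𝓝 z, c ∈ T w → dist w V ≤ 1) ∨ (∀ᶠ w in 𝓝 z, c ∈ T w → 1 ≤ dist w V) := by
  by_contra hcon
  push Not at hcon
  obtain ⟨h1, h2⟩ := hcon
  obtain ⟨w1, ⟨hc1, hd1⟩, hw1⟩ := (h1.and_eventually hct).exists
  obtain ⟨w2, ⟨hc2, hd2⟩, hw2⟩ := (h2.and_eventually hct).exists
  obtain ⟨Q1, hQF1, hQ1, hz1, hwQ1⟩ := hw1 c hc1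
  obtain ⟨Q2, hQF2, hQ2, hz2, hwQ2⟩ := hw2 c hc2
  exact h.mx.wlemma (hQ1.union z hz1 hz2 hQ2) (union_subset hQF1 hQF2) (Or.inr hwQ2) (Or.inl hwQ1)
    hd2 hd1 hV

/-- the points of colour `c` near a point of `XX` are, up to the second order, in a half plane -/
theorem Irr.half_plane (h : Irr U T) {z : ℂ} (hz : z ∈ XX U) (hct : Ctn U T z) {c : Fin k}
    (hc : c ∈ T z) :
    ∃ v : ℂ, ‖v‖ = 1 ∧ ∀ᶠ w in 𝓝 z, c ∈ T w → -(dist w z ^ 2 / 2) ≤ ip (w - z) v := by
  obtain ⟨V, hzV, hV⟩ : ∃ V, dist z V = 1 ∧ c ∈ Pal U V := by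
    first
      | exact h.partner_XX hz c
      | exact h.partner_XX hz hc
  have key : ∀ w : ℂ, dist w V ^ 2 = dist w z ^ 2 - 2 * ip (w - z) (V - z) + 1 := by
    intro w
    have h1 : dist z V ^ 2 = 1 := by rw [hzV]; norm_num
    rw [sq_dist] at h1 ⊢
    rw [sq_dist]
    unfold ip
    simp only [Complex.sub_re, Complex.sub_im] at h1 ⊢
    linear_combination h1
  rcases h.one_side hct hV with h1 | h1
  · refine ⟨V - z, by rw [← dist_eq_norm, dist_comm]; exact hzV, ?_⟩
    filter_upwards [h1] with w hw hc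
    have h2 := hw hc
    have h3 := key w
    have h4 : dist w V ^ 2 ≤ 1 := by
      have := dist_nonneg (x := w) (y := V)
      nlinarith
    have h5 := sq_nonneg (dist w z)
    linarith
  · refine ⟨z - V, by rw [← dist_eq_norm]; exact hzV, ?_⟩
    filter_upwards [h1] with w hw hc
    have h2 := hw hc
    have h3 := key w
    have h4 : 1 ≤ dist w V ^ 2 := by nlinarith
    have h5 : ip (w - z) (z - V) = -ip (w - z) (V - z) := by unfold ip; simp; ring
    rw [h5]
    linarith

/-- the directions of the colour `c` at a point of `XX` are in a closed half plane -/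
theorem Irr.half_plane_dir (h : Irr U T) {z : ℂ} (hz : z ∈ XX U) (hct : Ctn U T z) {c : Fin k}
    (hc : c ∈ T z) :
    ∃ α : ℝ, ∀ θ : ℝ, ((0 : ℝ), θ) ∈ closure {p : ℝ × ℝ | 0 < p.1 ∧ c ∈ T (z + p.1 * cis p.2)} →
      0 ≤ Real.cos (θ - α) := by
  obtain ⟨v, hv, hev⟩ := h.half_plane hz hct hc
  refine ⟨Complex.arg v, fun θ hθ => ?_⟩
  have hre : v.re = Real.cos (Complex.arg v) := by
    have := Complex.norm_mul_cos_arg v
    rw [hv, one_mul] at this
    exact this.symm
  have him : v.im = Real.sin (Complex.arg v) := by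
    have := Complex.norm_mul_sin_arg v
    rw [hv, one_mul] at this
    exact this.symm
  have hcos : Real.cos (θ - Complex.arg v) = ip (cis θ) v := by
    unfold ip
    rw [Real.cos_sub, cis_re, cis_im, hre, him]
  rw [hcos]
  have hne := mem_closure_iff_nhdsWithin_neBot.1 hθ
  have hc1 : Continuous fun p : ℝ × ℝ => z + p.1 * cis p.2 :=
    continuous_const.add ((Complex.continuous_ofReal.comp continuous_fst).mul
      (continuous_cis.comp continuous_snd))
  have ht1 : Tendsto (fun p : ℝ × ℝ => z + p.1 * cis p.2) (𝓝 ((0 : ℝ), θ)) (𝓝 z) := by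
    have := hc1.tendsto ((0 : ℝ), θ)
    simpa using this
  have hev2 : ∀ᶠ p : ℝ × ℝ in 𝓝[{p : ℝ × ℝ | 0 < p.1 ∧ c ∈ T (z + p.1 * cis p.2)}] ((0 : ℝ), θ),
      0 ≤ ip (cis p.2) v + p.1 / 2 := by
    filter_upwards [self_mem_nhdsWithin, (ht1.mono_left nhdsWithin_le_nhds).eventually hev] with
      p hp hp2
    have h3 := hp2 hp.2
    have h4 : z + p.1 * cis p.2 - z = p.1 * cis p.2 := by ring
    have h5 : dist (z + p.1 * cis p.2) z = p.1 := by
      rw [dist_eq_norm, h4, norm_mul, Complex.norm_real, Real.norm_of_nonneg hp.1.le,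
        norm_cis, mul_one]
    have h6 : ip ((p.1 : ℂ) * cis p.2) v = p.1 * ip (cis p.2) v := by
      unfold ip
      simp only [Complex.mul_re, Complex.mul_im, Complex.ofReal_re, Complex.ofReal_im]
      ring
    rw [h4, h5, h6] at h3
    have hp1 : 0 < p.1 := hp.1
    by_contra hcon
    push Not at hcon
    nlinarith
  have hc2 : Continuous fun p : ℝ × ℝ => ip (cis p.2) v + p.1 / 2 := by
    unfold ip
    have := continuous_cis
    fun_prop
  have hlim : Tendsto (fun p : ℝ × ℝ => ip (cis p.2) v + p.1 / 2)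
      (𝓝[{p : ℝ × ℝ | 0 < p.1 ∧ c ∈ T (z + p.1 * cis p.2)}] ((0 : ℝ), θ)) (𝓝 (ip (cis θ) v)) := by
    have := hc2.tendsto ((0 : ℝ), θ)
    simp only [zero_div, add_zero] at this
    exact this.mono_left nhdsWithin_le_nhds
  exact ge_of_tendsto hlim hev2

end Vale.Agent.P032.Six
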