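import Vale.Agent.P032W.H820.Cont

/-!
# P032: presence of colours in exact directions

`Dx T p w c` : the colour `c` is in `T (p + r w)` for arbitrarily small `r > 0`.

* `Irr.exists_dx` : some colour is present in every direction,
* `Irr.dx_cross` (R1) : if `|p - y| = 1` and `c` is present at `y` in the direction `w'`, then in every
  direction `w` at `p` on the same side a colour different from `c` is present,
* `Mx.dx_arc` (R2) : colours carried by a half arc which the moving circle crosses are absent,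
* `not_dx_out`, `not_dx_in` : half plane rules,
* `Mx.sided_of_ct` : a colour with a nontrivial continuum through `z` which meets `U i` has a side at
  every point of `S(z)`.
-/

open Set Filter Topology Metric

noncomputable section

namespace Vale.Agent.P032.Six

variable {k : ℕ} {U : Fin k → Set ℂ} {T : ℂ → Set (Fin k)}

theorem freq_gt_iff {P : ℝ → Prop} :
    (∃ᶠ r in 𝓝[>] (0 : ℝ), P r) ↔ ∀ ε > 0, ∃ r, 0 < r ∧ r < ε ∧ P r := by
  constructor
  · intro h ε hε
    have h1 : ∀ᶠ r : ℝ in 𝓝[>] 0, 0 < r ∧ r < ε := by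
      filter_upwards [self_mem_nhdsWithin, mem_nhdsWithin_of_mem_nhds (Iio_mem_nhds hε)] with r a b
      exact ⟨a, b⟩
    obtain ⟨r, h2, h3⟩ := (h.and_eventually h1).exists
    exact ⟨r, h3.1, h3.2, h2⟩
  · intro h
    rw [Filter.frequently_iff]
    intro V hV
    obtain ⟨u, hu, hsub⟩ := mem_nhdsGT_iff_exists_Ioo_subset.1 hV
    obtain ⟨r, h1, h2, h3⟩ := h u hu
    exact ⟨r, hsub ⟨h1, h2⟩, h3⟩

theorem ev_gt_iff {P : ℝ → Prop} :
    (∀ᶠ r in 𝓝[>] (0 : ℝ), P r) ↔ ∃ ε > 0, ∀ r, 0 < r → r < ε → P r := by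
  rw [← not_iff_not, Filter.not_eventually, freq_gt_iff]
  push Not
  exact Iff.rfl

/-- the colour `c` is present at `p` in the exact direction `w` -/
def Dx (T : ℂ → Set (Fin k)) (p w : ℂ) (c : Fin k) : Prop :=
  ∃ᶠ r : ℝ in 𝓝[>] 0, c ∈ T (p + r * w)

/-- pigeonhole -/
theorem exists_dx_of {p w : ℂ} {Q : Fin k → Prop}
    (h : ∃ᶠ r : ℝ in 𝓝[>] 0, ∃ c, Q c ∧ c ∈ T (p + r * w)) : ∃ c, Q c ∧ Dx T p w c := by
  by_contra hcon
  push Not at hcon
  have h1 : ∀ c, Q c → ∀ᶠ r : ℝ in 𝓝[>] 0, c ∉ T (p + r * w) := fun c hc =>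
    Filter.not_frequently.1 (hcon c hc)
  have h2 : ∀ᶠ r : ℝ in 𝓝[>] 0, ∀ c, Q c → c ∉ T (p + r * w) := by
    rw [Filter.eventually_all]
    intro c
    by_cases hc : Q c
    · exact (h1 c hc).mono fun r hr _ => hr
    · exact Filter.Eventually.of_forall fun r hr => absurd hr hc
  obtain ⟨r, ⟨c, hc, hcT⟩, h3⟩ := (h.and_eventually h2).exists
  exact h3 c hc hcT

theorem Irr.exists_dx (h : Irr U T) (p w : ℂ) : ∃ c, Dx T p w c := by
  obtain ⟨c, -, hc⟩ := exists_dx_of (T := T) (p := p) (w := w) (Q := fun _ => True)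
    (Filter.Eventually.frequently (Filter.Eventually.of_forall fun r => by
      obtain ⟨c, hc⟩ := h.ne (p + r * w)
      exact ⟨c, trivial, hc⟩))
  exact ⟨c, hc⟩

theorem tendsto_line (p w : ℂ) : Tendsto (fun r : ℝ => p + r * w) (𝓝[>] 0) (𝓝 p) := by
  have : Continuous fun r : ℝ => p + r * w := by fun_prop
  have h2 := this.tendsto 0
  simp only [Complex.ofReal_zero, zero_mul, add_zero] at h2
  exact h2.mono_left nhdsWithin_le_nhds

theorem Dx.mem (h : Irr U T) {p w : ℂ} {c : Fin k} (hd : Dx T p w c) : c ∈ T p := by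
  have h1 : ∃ᶠ x in 𝓝 p, c ∈ T x := (tendsto_line p w).frequently hd
  exact (h.closed c).mem_of_frequently_of_tendsto h1 tendsto_id

theorem ip_self_nonneg (w : ℂ) : 0 ≤ ip w w := by
  unfold ip; nlinarith [sq_nonneg w.re, sq_nonneg w.im]

theorem ip_comm' (a b : ℂ) : ip a b = ip b a := by unfold ip; ring

/-- the line `p + r w` leaves the unit circle about `y` to the side given by the inner product -/
theorem line_side {p y w : ℂ} (hpy : dist p y = 1) (hA : ip w (p - y) ≠ 0) :
    ∀ᶠ r : ℝ in 𝓝[>] 0, 0 < (dist (p + r * w) y - 1) * ip w (p - y) := by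
  set A := ip w (p - y) with hAdef
  have hN := ip_self_nonneg w
  have hA2 : ip w (y - p) = -A := by rw [hAdef]; unfold ip; simp; ring
  rw [ev_gt_iff]
  refine ⟨|A| / (ip w w + 1), by positivity, fun r h1 h2 => ?_⟩
  rw [lt_div_iff₀ (by linarith)] at h2
  have h3 := sq_line p w y r
  rw [hpy, hA2] at h3
  have h4 := dist_nonneg (x := p + r * w) (y := y)
  set d := dist (p + r * w) y with hd
  have h5 : (d - 1) * (d + 1) = r * (2 * A + r * ip w w) := by nlinarith
  have hr : r * ip w w < |A| := by nlinarith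
  have hr0 : 0 ≤ r * ip w w := by positivity
  have h6 : 0 < A * (2 * A + r * ip w w) := by
    rcases lt_or_gt_of_ne hA with h | h
    · rw [abs_of_neg h] at hr
      exact mul_pos_of_neg_of_neg h (by linarith)
    · exact mul_pos h (by linarith)
  have h7 : 0 < (d - 1) * A * (d + 1) := by
    have : (d - 1) * A * (d + 1) = r * (A * (2 * A + r * ip w w)) := by
      calc (d - 1) * A * (d + 1) = A * ((d - 1) * (d + 1)) := by ring
        _ = A * (r * (2 * A + r * ip w w)) := by rw [h5]
        _ = _ := by ring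
    rw [this]
    exact mul_pos h1 h6
  by_contra hcon
  push Not at hcon
  nlinarith

/-- the point `p` seen from `y + r w'` -/
theorem point_side {p y w' : ℂ} (hpy : dist p y = 1) (hB : ip w' (p - y) ≠ 0) :
    ∀ᶠ r : ℝ in 𝓝[>] 0, (dist p (y + r * w') - 1) * ip w' (p - y) < 0 := by
  have h1 : dist y p = 1 := by rw [dist_comm]; exact hpy
  have h2 : ip w' (y - p) = -ip w' (p - y) := by unfold ip; simp; ring
  filter_upwards [line_side (w := w') h1 (by rw [h2]; exact neg_ne_zero.2 hB)] with r hr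
  rw [h2, dist_comm] at hr
  nlinarith

/-- **R1**: if `c` is present at `y` in the direction `w'`, then in every direction `w` at `p` on the
same side another colour is present -/
theorem Irr.dx_cross (h : Irr U T) {p y w w' : ℂ} {c : Fin k} (hpy : dist p y = 1)
    (hs : 0 < ip w' (p - y) * ip w (p - y)) (hd : Dx T y w' c) : ∃ c', c' ≠ c ∧ Dx T p w c' := by
  have hA : ip w (p - y) ≠ 0 := fun h0 => by rw [h0, mul_zero] at hs; exact lt_irrefl _ hs
  have hB : ip w' (p - y) ≠ 0 := fun h0 => by rw [h0, zero_mul] at hs; exact lt_irrefl _ hs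
  apply exists_dx_of
  rw [freq_gt_iff]
  intro ε hε
  obtain ⟨ε1, hε1, h1⟩ := ev_gt_iff.1 (line_side (w := w) hpy hA)
  set ρ2 := min ε ε1 / 2 with hρ2
  have hρ0 : 0 < ρ2 := by have := lt_min hε hε1; linarith
  have hρε : ρ2 < ε := by have := min_le_left ε ε1; have := lt_min hε hε1; linarith
  have hρε1 : ρ2 < ε1 := by have := min_le_right ε ε1; have := lt_min hε hε1; linarith
  have h2 := h1 ρ2 hρ0 hρε1
  -- for small `r` the same sign at `y + r w'`
  have hc : Tendsto (fun r : ℝ => (dist (p + ρ2 * w) (y + r * w') - 1) * ip w (p - y)) (𝓝[>] 0)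
      (𝓝 ((dist (p + ρ2 * w) y - 1) * ip w (p - y))) :=
    ((tendsto_const_nhds.dist (tendsto_line y w')).sub_const 1).mul_const _
  have h3 := hc.eventually (Ioi_mem_nhds h2)
  obtain ⟨r, hcr, h4, h5⟩ := (hd.and_eventually (h3.and (point_side (w' := w') hpy hB))).exists
  have h4' : 0 < (dist (p + ρ2 * w) (y + r * w') - 1) * ip w (p - y) := h4
  -- the intermediate value theorem
  have hcont : ContinuousOn (fun ρ : ℝ => dist (p + ρ * w) (y + r * w')) (uIcc 0 ρ2) := by fun_prop
  have hmem : (1 : ℝ) ∈ uIcc (dist (p + ((0 : ℝ) : ℂ) * w) (y + r * w'))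
      (dist (p + ρ2 * w) (y + r * w')) := by
    rw [Complex.ofReal_zero, zero_mul, add_zero]
    rcases lt_or_gt_of_ne hA with ha | ha
    · have hb : ip w' (p - y) < 0 := by
        by_contra hcon
        push Not at hcon
        nlinarith
      have e1 : dist (p + ρ2 * w) (y + r * w') < 1 := by
        by_contra hcon
        push Not at hcon
        nlinarith
      have e2 : 1 < dist p (y + r * w') := by
        by_contra hcon
        push Not at hcon
        nlinarith
      rw [uIcc_of_ge (by linarith)]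
      exact ⟨e1.le, e2.le⟩
    · have hb : 0 < ip w' (p - y) := by
        by_contra hcon
        push Not at hcon
        nlinarith
      have e1 : 1 < dist (p + ρ2 * w) (y + r * w') := by
        by_contra hcon
        push Not at hcon
        nlinarith
      have e2 : dist p (y + r * w') < 1 := by
        by_contra hcon
        push Not at hcon
        nlinarith
      rw [uIcc_of_le (by linarith)]
      exact ⟨e2.le, e1.le⟩
  obtain ⟨ρ, hρ, hρ1⟩ := intermediate_value_uIcc hcont hmem
  rw [uIcc_of_le hρ0.le] at hρ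
  have hρpos : 0 < ρ := by
    rcases hρ.1.lt_or_eq with h6 | h6
    · exact h6
    · exfalso
      rw [← h6] at hρ1
      simp only [Complex.ofReal_zero, zero_mul, add_zero] at hρ1
      rw [hρ1, sub_self, zero_mul] at h5
      exact lt_irrefl _ h5
  refine ⟨ρ, hρpos, lt_of_le_of_lt hρ.2 hρε, ?_⟩
  by_contra hcon
  push Not at hcon
  have hTp : T (p + ρ * w) ⊆ {c} := fun m hm => by
    by_contra hmc
    exact hcon m hmc hm
  have hU : p + ρ * w ∈ U c := h.mem_of_single hTp
  exact h.mx.free c _ hU _ (h.sub _ hcr) hρ1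

/-- R1 in the form used most: if only `c` is present at `p` in the direction `w`, then `c` is not
present at `y` in the direction `w'` -/
theorem Irr.not_dx_of_solid (h : Irr U T) {p y w w' : ℂ} {c : Fin k} (hpy : dist p y = 1)
    (hs : 0 < ip w' (p - y) * ip w (p - y)) (hsol : ∀ c', c' ≠ c → ¬ Dx T p w c') :
    ¬ Dx T y w' c := fun hd => by
  obtain ⟨c', h1, h2⟩ := h.dx_cross hpy hs hd
  exact hsol c' h1 h2

/-- the half arc of `S(z)` at `v` on the side `s` carries `i` -/
def Hc (U : Fin k → Set ℂ) (z v : ℂ) (s : ℝ) (i : Fin k) : Prop :=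
  ∀ᶠ δ : ℝ in 𝓝[>] 0, i ∈ Pal U (z + (v - z) * cis (s * δ))

theorem pos_of_deriv {f : ℝ → ℝ} {d : ℝ} (hf : HasDerivAt f d 0) (h0 : f 0 = 0) (hd : 0 < d) :
    ∀ᶠ δ : ℝ in 𝓝[>] 0, 0 < f δ := by
  have h1 := hasDerivAt_iff_tendsto_slope.1 hf
  have h2 : ∀ᶠ δ : ℝ in 𝓝[≠] 0, 0 < slope f 0 δ := h1.eventually (Ioi_mem_nhds hd)
  have h3 : 𝓝[>] (0 : ℝ) ≤ 𝓝[≠] 0 := nhdsWithin_mono _ fun x hx => ne_of_gt hx
  filter_upwards [h3 h2, self_mem_nhdsWithin] with δ h4 h5
  rw [slope_def_field, h0, sub_zero, sub_zero] at h4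
  have h6 : (0 : ℝ) < δ := h5
  have := mul_pos h4 h6
  rwa [div_mul_cancel₀ _ h6.ne'] at this

/-- the half arc leaves the unit circle about `y` -/
theorem arc_side {z v y : ℂ} {s : ℝ} (hvy : dist v y = 1)
    (hA : ip (s * (Complex.I * (v - z))) (v - y) ≠ 0) :
    ∀ᶠ δ : ℝ in 𝓝[>] 0, 0 < (dist (z + (v - z) * cis (s * δ)) y - 1) *
      ip (s * (Complex.I * (v - z))) (v - y) := by
  set A := ip (s * (Complex.I * (v - z))) (v - y) with hAdef
  have hd : HasDerivAt (fun δ : ℝ => (dist (z + (v - z) * cis (s * δ)) y ^ 2 - 1) * A)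
      (2 * A * A) 0 := by
    have h1 : (fun δ : ℝ => (dist (z + (v - z) * cis (s * δ)) y ^ 2 - 1) * A) = fun δ : ℝ =>
        ((((z - y).re + (v - z).re * Real.cos (s * δ) - (v - z).im * Real.sin (s * δ)) ^ 2 +
        ((z - y).im + (v - z).re * Real.sin (s * δ) + (v - z).im * Real.cos (s * δ)) ^ 2) - 1) * A
        := by
      funext δ
      rw [sq_dist]
      simp only [Complex.add_re, Complex.add_im, Complex.mul_re, Complex.mul_im, cis_re, cis_im,
        Complex.sub_re, Complex.sub_im]
      ring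
    rw [h1]
    have hs1 : HasDerivAt (fun δ : ℝ => s * δ) s 0 := by
      simpa using (hasDerivAt_id (0 : ℝ)).const_mul s
    have hcos : HasDerivAt (fun δ : ℝ => Real.cos (s * δ)) (-Real.sin (s * 0) * s) 0 :=
      (Real.hasDerivAt_cos (s * 0)).comp 0 hs1
    have hsin : HasDerivAt (fun δ : ℝ => Real.sin (s * δ)) (Real.cos (s * 0) * s) 0 :=
      (Real.hasDerivAt_sin (s * 0)).comp 0 hs1
    have e1 := (((hcos.const_mul (v - z).re).const_add (z - y).re).sub
      (hsin.const_mul (v - z).im)).pow 2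
    have e2 := (((hsin.const_mul (v - z).re).const_add (z - y).im).add
      (hcos.const_mul (v - z).im)).pow 2
    refine (((e1.add e2).sub_const 1).mul_const A).congr_deriv ?_
    have hA' : A = s * (-(v - z).im * (v - y).re + (v - z).re * (v - y).im) := by
      rw [hAdef]; unfold ip; simp; ring
    simp only [mul_zero, Real.sin_zero, Real.cos_zero, neg_zero, zero_mul, one_mul, mul_one,
      sub_zero, add_zero, Nat.cast_ofNat, Pi.add_apply, Pi.sub_apply]
    rw [hA']
    simp only [Complex.sub_re, Complex.sub_im]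
    ring
  have hpos : 0 < 2 * A * A := by
    have := mul_self_pos.2 hA
    nlinarith
  have h0 : (fun δ : ℝ => (dist (z + (v - z) * cis (s * δ)) y ^ 2 - 1) * A) 0 = 0 := by
    have : cis (s * 0) = 1 := by simp [cis]
    simp only [this, mul_one, add_sub_cancel, hvy]
    ring
  filter_upwards [pos_of_deriv hd h0 hpos] with δ hδ
  have h4 := dist_nonneg (x := z + (v - z) * cis (s * δ)) (y := y)
  set D := dist (z + (v - z) * cis (s * δ)) y with hD
  have h5 : (D ^ 2 - 1) * A = ((D - 1) * A) * (D + 1) := by ring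
  rw [h5] at hδ
  by_contra hcon
  push Not at hcon
  nlinarith

/-- **R2**: the colours carried by a half arc of `S(z)` at `v` which the circles about `y + r w'`
cross are absent at `y` in the direction `w'` -/
theorem Mx.dx_arc (h : Mx U) {z v y w' : ℂ} {s : ℝ} {i : Fin k} (hvy : dist v y = 1)
    (hs : 0 < ip w' (v - y) * ip (s * (Complex.I * (v - z))) (v - y)) (hc : Hc U z v s i) :
    ∀ᶠ r : ℝ in 𝓝[>] 0, i ∉ Pal U (y + r * w') := by
  set A := ip (s * (Complex.I * (v - z))) (v - y) with hAdef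
  set B := ip w' (v - y) with hBdef
  have hA : A ≠ 0 := fun h0 => by rw [h0, mul_zero] at hs; exact lt_irrefl _ hs
  have hB : B ≠ 0 := fun h0 => by rw [h0, zero_mul] at hs; exact lt_irrefl _ hs
  obtain ⟨ε, hε, h1⟩ := ev_gt_iff.1 ((arc_side hvy hA).and hc)
  set δ2 := ε / 2 with hδ2
  have hδ0 : 0 < δ2 := by linarith
  have hδε : δ2 < ε := by linarith
  have h2 := (h1 δ2 hδ0 hδε).1
  have hct : Tendsto (fun r : ℝ => (dist (z + (v - z) * cis (s * δ2)) (y + r * w') - 1) * A)
      (𝓝[>] 0) (𝓝 ((dist (z + (v - z) * cis (s * δ2)) y - 1) * A)) :=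
    ((tendsto_const_nhds.dist (tendsto_line y w')).sub_const 1).mul_const _
  filter_upwards [hct.eventually (Ioi_mem_nhds h2), point_side (w' := w') hvy hB] with r h4 h5
  have h4' : 0 < (dist (z + (v - z) * cis (s * δ2)) (y + r * w') - 1) * A := h4
  have hcq : Continuous fun δ : ℝ => z + (v - z) * cis (s * δ) :=
    continuous_const.add (continuous_const.mul (continuous_cis.comp (continuous_const.mul
      continuous_id)))
  have hq0 : z + (v - z) * cis (s * 0) = v := by simp [cis]
  have hv : v ∈ closure (U i) := by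
    have ht : Tendsto (fun δ : ℝ => z + (v - z) * cis (s * δ)) (𝓝[>] 0) (𝓝 v) := by
      have := hcq.tendsto 0
      rw [hq0] at this
      exact this.mono_left nhdsWithin_le_nhds
    exact isClosed_closure.mem_of_tendsto ht hc
  have hQ : IsPreconnected ((fun δ : ℝ => z + (v - z) * cis (s * δ)) '' Icc 0 δ2) :=
    isPreconnected_Icc.image _ hcq.continuousOn
  have hQF : (fun δ : ℝ => z + (v - z) * cis (s * δ)) '' Icc 0 δ2 ⊆ closure (U i) := by
    rintro _ ⟨δ, ⟨hδ1, hδ3⟩, rfl⟩
    rcases hδ1.lt_or_eq with h6 | h6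
    · exact (h1 δ h6 (by linarith)).2
    · simp only [← h6]
      rw [hq0]
      exact hv
  have m0 : v ∈ (fun δ : ℝ => z + (v - z) * cis (s * δ)) '' Icc 0 δ2 :=
    ⟨0, ⟨le_rfl, hδ0.le⟩, hq0⟩
  have m2 : z + (v - z) * cis (s * δ2) ∈ (fun δ : ℝ => z + (v - z) * cis (s * δ)) '' Icc 0 δ2 :=
    ⟨δ2, ⟨hδ0.le, le_rfl⟩, rfl⟩
  rcases lt_or_gt_of_ne hA with ha | ha
  · have hb : B < 0 := by
      by_contra hcon
      push Not at hcon
      nlinarith
    have e1 : dist (z + (v - z) * cis (s * δ2)) (y + r * w') < 1 := by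
      by_contra hcon
      push Not at hcon
      nlinarith
    have e2 : 1 < dist v (y + r * w') := by
      by_contra hcon
      push Not at hcon
      nlinarith
    exact h.wlemma hQ hQF m2 m0 e1 e2
  · have hb : 0 < B := by
      by_contra hcon
      push Not at hcon
      nlinarith
    have e1 : 1 < dist (z + (v - z) * cis (s * δ2)) (y + r * w') := by
      by_contra hcon
      push Not at hcon
      nlinarith
    have e2 : dist v (y + r * w') < 1 := by
      by_contra hcon
      push Not at hcon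
      nlinarith
    exact h.wlemma hQ hQF m0 m2 e2 e1

theorem Irr.not_dx_arc (h : Irr U T) {z v y w' : ℂ} {s : ℝ} {i : Fin k} (hvy : dist v y = 1)
    (hs : 0 < ip w' (v - y) * ip (s * (Complex.I * (v - z))) (v - y)) (hc : Hc U z v s i) :
    ¬ Dx T y w' i := by
  intro hd
  obtain ⟨r, h1, h2⟩ := (hd.and_eventually (h.mx.dx_arc hvy hs hc)).exists
  exact h2 (h.sub _ h1)

/-- half plane rule: a colour absent outside `S(q)` near `z` is not present at `z` in the directions
away from `q` -/
theorem Irr.not_dx_out (h : Irr U T) {z q w : ℂ} {i : Fin k} (hq : dist z q = 1)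
    (hs : ∀ᶠ x in 𝓝 z, 1 < dist x q → i ∉ Pal U x) (hw : ip w (q - z) < 0) : ¬ Dx T z w i := by
  intro hd
  have hw' : ip w (z - q) = -ip w (q - z) := by unfold ip; simp; ring
  obtain ⟨r, h1, h2, h3⟩ := (hd.and_eventually (((tendsto_line z w).eventually hs).and
    (line_side (w := w) hq (by rw [hw']; linarith)))).exists
  rw [hw'] at h3
  refine h2 ?_ (h.sub _ h1)
  by_contra hcon
  push Not at hcon
  nlinarith

/-- half plane rule: a colour absent inside `S(q)` near `z` is not present at `z` in the directions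
towards `q` -/
theorem Irr.not_dx_in (h : Irr U T) {z q w : ℂ} {i : Fin k} (hq : dist z q = 1)
    (hs : ∀ᶠ x in 𝓝 z, dist x q < 1 → i ∉ Pal U x) (hw : 0 < ip w (q - z)) : ¬ Dx T z w i := by
  intro hd
  have hw' : ip w (z - q) = -ip w (q - z) := by unfold ip; simp; ring
  obtain ⟨r, h1, h2, h3⟩ := (hd.and_eventually (((tendsto_line z w).eventually hs).and
    (line_side (w := w) hq (by rw [hw']; linarith)))).exists
  rw [hw'] at h3
  refine h2 ?_ (h.sub _ h1)
  by_contra hcon
  push Not at hcon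
  nlinarith

/-- the closure of `U i` contains a connected set through `z` which meets `U i` -/
def Ct (U : Fin k → Set ℂ) (z : ℂ) (i : Fin k) : Prop :=
  ∃ Q ⊆ closure (U i), IsPreconnected Q ∧ z ∈ Q ∧ (Q ∩ U i).Nonempty

/-- such a set has a point off a given unit circle -/
theorem Ct.exists_off {i : Fin k} (hU : IsOpen (U i)) {z V : ℂ} (h : Ct U z i) :
    ∃ Q ⊆ closure (U i), IsPreconnected Q ∧ z ∈ Q ∧ ∃ x ∈ Q, dist x V ≠ 1 := by
  obtain ⟨Q, hQF, hQ, hz, x, hxQ, hxU⟩ := h
  obtain ⟨ε, hε, hb⟩ := Metric.isOpen_iff.1 hU x hxU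
  by_cases hx : dist x V = 1
  · refine ⟨Q ∪ ball x ε, union_subset hQF (hb.trans subset_closure), ?_, Or.inl hz, ?_⟩
    · exact hQ.union x hxQ (mem_ball_self hε) (convex_ball x ε).isPreconnected
    · refine ⟨x + (ε / 2 : ℝ) * (x - V), Or.inr ?_, ?_⟩
      · have hn : ‖x - V‖ = 1 := by rw [← dist_eq_norm]; exact hx
        rw [mem_ball, dist_eq_norm, add_sub_cancel_left, norm_mul, hn, Complex.norm_real,
          Real.norm_of_nonneg (by linarith)]
        linarith
      · have hn : ‖x - V‖ = 1 := by rw [← dist_eq_norm]; exact hx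
        have : x + (ε / 2 : ℝ) * (x - V) - V = ((1 + ε / 2 : ℝ) : ℂ) * (x - V) := by
          push_cast; ring
        rw [dist_eq_norm, this, norm_mul, hn, Complex.norm_real, Real.norm_of_nonneg (by linarith)]
        linarith
  · exact ⟨Q, hQF, hQ, hz, x, hxQ, hx⟩

/-- **sides everywhere**: a colour with a continuum through `z` which meets `U i` has a side at every
point of `S(z)` -/
theorem Mx.sided_of_ct (h : Mx U) {z V : ℂ} {i : Fin k} (hc : Ct U z i) :
    (∀ᶠ x in 𝓝 V, 1 < dist x z → i ∉ Pal U x) ∨ (∀ᶠ x in 𝓝 V, dist x z < 1 → i ∉ Pal U x) := by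
  obtain ⟨Q, hQF, hQ, hzQ, x, hx, hne⟩ := Ct.exists_off (h.isOpen i) (V := V) hc
  rcases lt_or_gt_of_ne hne with h1 | h1
  · left
    have hev : ∀ᶠ w in 𝓝 V, dist x w < 1 :=
      (continuous_const.dist continuous_id).continuousAt.eventually_lt_const h1
    filter_upwards [hev] with w hw hwz
    exact h.wlemma hQ hQF hx hzQ hw (by rw [dist_comm]; exact hwz)
  · right
    have hev : ∀ᶠ w in 𝓝 V, 1 < dist x w :=
      (continuous_const.dist continuous_id).continuousAt.eventually_const_lt h1
    filter_upwards [hev] with w hw hwz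
    exact h.wlemma hQ hQF hzQ hx (by rw [dist_comm]; exact hwz) hw

end Vale.Agent.P032.Six
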