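import Vale.Agent.P032W.H820.TabOk

/-!
# P032: the stack machine for tree certificates

A certificate is a natural number, digits of 15 bits `op + 8 c + 64 x`:
`0` : the entry `x` has only the colour `c`; remove `c` from the row of `x`;
`1` : the entry `x` is empty; `2` : split the letter entry `x`: only `c`, or not `c`;
`3`, `4` : the left end of `c` (in the sector `x` before) stays, moves; `5` : split this;
`6` : the left end of `c` moves since `c` is not in its sector; `7` : the end of `c` neither stays nor moves (`x = 0`), or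
the next code of the list is reached.
-/

namespace Vale.Agent.P032.H820

/-- branching -/
noncomputable def br {α : Type} (b : Bool) (x y : α) : α := @Bool.rec (fun _ => α) y x b

theorem br_true {α : Type} (x y : α) : br true x y = x := rfl
theorem br_false {α : Type} (x y : α) : br false x y = y := rfl

/-- remove the bits of `r` -/
noncomputable def rem (m r : ℕ) : ℕ := Nat.xor m (Nat.land m r)

/-- row `r` in the plane `c` -/
noncomputable def pl (r c : ℕ) : ℕ := Nat.shiftLeft r (Nat.mul 470 c)

/-- the bit `(c, x)` -/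
noncomputable def bit1 (c x : ℕ) : ℕ := Nat.shiftLeft 1 (Nat.add (Nat.mul 470 c) x)

/-- the bits `(c', x)`, `c' ≠ c` -/
noncomputable def ex (c x : ℕ) : ℕ := Nat.xor (Nat.shiftLeft tA x) (bit1 c x)

/-- the moved end in the code: bit `12 + p` to bit `12 + (p + 5) % 6` -/
noncomputable def mvb (b : ℕ) : ℕ :=
  Nat.lor (Nat.land (Nat.shiftRight b 1) 258048) (Nat.shiftLeft (Nat.land b 4096) 5)

/-- the block of the colour `c` of the code of the state after -/
noncomputable def lfc (code m c : ℕ) : ℕ :=
  Nat.lor (Nat.land (Nat.shiftRight m (Nat.mul 470 c)) 4095)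
    (Nat.lor (br (tb m (Nat.add (Nat.mul 470 c) 12))
        (Nat.land (Nat.shiftRight code (Nat.mul 18 c)) 258048) 0)
      (br (tb m (Nat.add (Nat.mul 470 c) 13))
        (mvb (Nat.land (Nat.shiftRight code (Nat.mul 18 c)) 258048)) 0))

/-- the code of the states after which are possible in the mask `m` -/
noncomputable def lf (code m : ℕ) : ℕ :=
  Nat.lor (lfc code m 0) (Nat.lor (Nat.shiftLeft (lfc code m 1) 18)
    (Nat.lor (Nat.shiftLeft (lfc code m 2) 36) (Nat.lor (Nat.shiftLeft (lfc code m 3) 54)
      (Nat.lor (Nat.shiftLeft (lfc code m 4) 72) (Nat.shiftLeft (lfc code m 5) 90)))))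

/-- one operation -/
noncomputable def disp (code : ℕ) (go : List ℕ → List ℕ → Bool) (op c x m : ℕ)
    (st S : List ℕ) : Bool :=
  br (Nat.beq op 0)
    (br (Nat.ble x 469) (br (Nat.beq (Nat.land m (ex c x)) 0)
      (go (rem m (pl (tabrow rowT x) c) :: st) S) false) false)
  (br (Nat.beq op 1)
    (br (Nat.ble x 469) (br (Nat.beq (Nat.land m (Nat.shiftLeft tA x)) 0)
      (br (Nat.beq x 12) false (br (Nat.beq x 13) false (go st S))) false) false)
  (br (Nat.beq op 2)
    (br (Nat.ble x 11) (go (rem m (ex c x) :: rem m (bit1 c x) :: st) S) false)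
  (br (Nat.beq op 3)
    (br (tb m (Nat.add (Nat.mul 470 c) 13)) false
      (br (tb code (Nat.add (Nat.mul 18 c) (Nat.add 12 x)))
        (br (Nat.ble x 5) (go (rem m (pl (tabrow n0T x) c) :: st) S) false) false))
  (br (Nat.beq op 4)
    (br (tb m (Nat.add (Nat.mul 470 c) 12)) false
      (br (tb code (Nat.add (Nat.mul 18 c) (Nat.add 12 x)))
        (br (Nat.ble x 5) (go (rem m (pl (tabrow n1T x) c) :: st) S) false) false))
  (br (Nat.beq op 5)
    (go (rem m (bit1 c 13) :: rem m (bit1 c 12) :: st) S)
  (br (Nat.beq op 6)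
    (br (tb m (Nat.add (Nat.mul 470 c) (Nat.add 14 (Nat.mod (Nat.add x 1) 6)))) false
      (br (tb code (Nat.add (Nat.mul 18 c) (Nat.add 12 x)))
        (br (Nat.ble x 5) (go (rem m (bit1 c 12) :: st) S) false) false))
  (br (Nat.beq x 0)
    (br (Nat.ble c 5) (br (tb m (Nat.add (Nat.mul 470 c) 12)) false
      (br (tb m (Nat.add (Nat.mul 470 c) 13)) false (go st S))) false)
    (@List.rec ℕ (fun _ => Bool) false (fun y S' _ => br (Nat.beq (lf code m) y) (go st S') false)
      S))))))))

/-- the machine -/
noncomputable def run (code fuel : ℕ) : ℕ → List ℕ → List ℕ → Bool :=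
  @Nat.rec (fun _ => ℕ → List ℕ → List ℕ → Bool) (fun _ _ _ => false)
    (fun _ ih cert st S => @List.rec ℕ (fun _ => Bool)
      (@List.rec ℕ (fun _ => Bool) true (fun _ _ _ => false) S)
      (fun m st' _ => disp code (ih (Nat.shiftRight cert 15)) (Nat.land cert 7)
        (Nat.land (Nat.shiftRight cert 3) 7) (Nat.land (Nat.shiftRight cert 6) 511) m st' S) st) fuel

/-- rows for the initial mask -/
noncomputable def ib (x : ℕ) : ℕ :=
  br (Nat.ble x 11) (tabrow lbT x)
    (Nat.land (tabrow n0T (Nat.sub x 12)) (tabrow n1T (Nat.sub x 12)))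

/-- the initial mask -/
noncomputable def initM (code n : ℕ) : ℕ :=
  @Nat.rec (fun _ => ℕ) tF (fun n ih => br (tb code n) (rem ih (pl (ib (Nat.mod n 18)) (Nat.div n 18)))
    ih) n

/-- the check of a representative -/
noncomputable def check (code fuel cert : ℕ) (S : List ℕ) : Bool :=
  run code fuel cert [initM code 108] S

end Vale.Agent.P032.H820
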