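import Vale.Agent.P032W.H820.OneEv

/-!
# P032: tree certificates for the rules `OneEv`, evaluated by the kernel

Entries `x`: `k`, `6 + k`, `k < 6` : inner, outer letter just after the position `k`; `12`, `13` : the left end stays,
moves; `14 + 24 i + g` : the germ `g` at the point `i`.  A mask is a natural number, bit `470 c + x` : the colour `c` is
possible in the entry `x`.
-/

namespace Vale.Agent.P032.H820

/-- the entries -/
def V (iR oR : ℕ → Fin 6) (mv : Fin 6 → Bool) (Pr : ℕ → ℕ → Fin 6 → Prop) (x : ℕ) (c : Fin 6) : Prop :=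
  if x < 12 then (if x < 6 then iR x = c else oR (x - 6) = c)
  else if x = 12 then mv c = false
  else if x = 13 then mv c = true
  else Pr ((x - 14) / 24) ((x - 14) % 24) c

/-- `y` is excluded by a letter (inner or outer, after or before) at `k` -/
def letP (after : Bool) (k : ℕ) (inner : Bool) (y : ℕ) : Bool :=
  if y < 14 then
    if y < 12 then
      (y == k + (if inner then 6 else 0)) ||
        (after && (y % 6 == (k + 1) % 6 || y % 6 == (k + 5) % 6))
    else false
  else
    (List.range 6).any (fun d => d != (k + 3) % 6 && nb (1 + k) d == some ((y - 14) / 24) &&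
      arcin k d after != inside ((y - 14) % 24) (d + 3)) ||
    ((y - 14) / 24 == 0 && tanx k ((y - 14) % 24) after) ||
    ((y - 14) / 24 == 1 + k && inside ((y - 14) % 24) (k + 3) != inner) ||
    ((y - 14) / 24 == 0 && (
      if after then
        (if inner then 4 ≤ rel (gang ((y - 14) % 24)) k && rel (gang ((y - 14) % 24)) k ≤ 9
          else 10 ≤ rel (gang ((y - 14) % 24)) k || rel (gang ((y - 14) % 24)) k ≤ 3)
      else
        (if inner then 3 ≤ rel (gang ((y - 14) % 24)) k && rel (gang ((y - 14) % 24)) k ≤ 8
          else 9 ≤ rel (gang ((y - 14) % 24)) k || rel (gang ((y - 14) % 24)) k ≤ 2)))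

/-- `y` is excluded by `x` -/
def rowP (x y : ℕ) : Bool :=
  if x < 6 then letP true x true y
  else if x < 12 then letP true (x - 6) false y
  else if x < 14 then false
  else if y < 14 then false
  else (List.range 6).any (fun d => nb ((x - 14) / 24) d == some ((y - 14) / 24) &&
    (inside ((x - 14) % 24) d != inside ((y - 14) % 24) (d + 3) || (x - 14) % 24 == (y - 14) % 24))

/-- `y` is excluded by the hull end -/
def hullP (b : Bool) (p y : ℕ) : Bool :=
  if y < 6 then !winI y (pr p b) else if y < 12 then !winO (y - 6) (pr p b)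
  else if y < 14 then false
  else (y - 14) / 24 == 0 && !hullok p b ((y - 14) % 24)

section sound

variable {iL oL iR oR : ℕ → Fin 6} {p : Fin 6 → ℕ} {mv : Fin 6 → Bool} {Pr : ℕ → ℕ → Fin 6 → Prop}

theorem V_germ {y : ℕ} (hy : 14 ≤ y) (c : Fin 6) :
    V iR oR mv Pr y c ↔ Pr ((y - 14) / 24) ((y - 14) % 24) c := by
  unfold V
  rw [if_neg (by omega), if_neg (by omega), if_neg (by omega)]

theorem V_in {k : ℕ} (hk : k < 6) (c : Fin 6) : V iR oR mv Pr k c ↔ iR k = c := by
  unfold V
  rw [if_pos (by omega), if_pos hk]

theorem V_out {k : ℕ} (hk : k < 6) (c : Fin 6) : V iR oR mv Pr (k + 6) c ↔ oR k = c := by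
  unfold V
  rw [if_pos (by omega), if_neg (by omega), Nat.add_sub_cancel]

/-- soundness of the letter rows, common part: the germ entries -/
theorem let_germ (h : OneEv iL oL iR oR p mv Pr) {after inner : Bool} {k y : ℕ} (hk : k < 6)
    (hy : 14 ≤ y) (hy2 : y < 470) (hP : letP after k inner y = true) :
    ¬ Pr ((y - 14) / 24) ((y - 14) % 24)
      (if after then (if inner then iR k else oR k) else (if inner then iL k else oL k)) := by
  set q := (y - 14) / 24 with hq
  set g := (y - 14) % 24 with hg
  have hg24 : g < 24 := Nat.mod_lt _ (by norm_num)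
  unfold letP at hP
  rw [if_neg (by omega)] at hP
  simp only [← hq, ← hg, Bool.or_eq_true, Bool.and_eq_true, List.any_eq_true, List.mem_range,
    bne_iff_ne, ne_eq, beq_iff_eq] at hP
  rcases hP with ((⟨d, hd, ⟨h1, h2⟩, h3⟩ | ⟨h1, h2⟩) | ⟨h1, h2⟩) | ⟨h1, h2⟩
  · have h4 := h.r2 k hk d hd h1 q h2 g hg24
    cases after
    · obtain ⟨a, b⟩ := h4.1 h3
      cases inner
      · simpa using b
      · simpa using a
    · obtain ⟨a, b⟩ := h4.2 h3
      cases inner
      · simpa using b
      · simpa using a
  · have h4 := h.r2z k hk g hg24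
    rw [h1]
    cases after
    · obtain ⟨a, b⟩ := h4.1 h2
      cases inner
      · simpa using b
      · simpa using a
    · obtain ⟨a, b⟩ := h4.2 h2
      cases inner
      · simpa using b
      · simpa using a
  · have h4 := h.ct k hk g hg24
    rw [h1]
    cases inner
    · have h5 : inside g (k + 3) = true := by simpa using h2
      obtain ⟨a, b⟩ := h4.2 h5
      cases after
      · simpa using a
      · simpa using b
    · have h5 : inside g (k + 3) = false := by simpa using h2
      obtain ⟨a, b⟩ := h4.1 h5
      cases after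
      · simpa using a
      · simpa using b
  · obtain ⟨a1, a2, a3, a4⟩ := h.hp k hk g hg24
    rw [h1]
    cases after <;> cases inner
    · simp only [Bool.false_eq_true, if_false, Bool.or_eq_true, decide_eq_true_eq] at h2
      simpa using a3 h2
    · simp only [Bool.false_eq_true, if_false, if_true, Bool.and_eq_true, decide_eq_true_eq] at h2
      simpa using a1 h2.1 h2.2
    · simp only [Bool.false_eq_true, if_false, if_true, Bool.or_eq_true, decide_eq_true_eq] at h2
      simpa using a4 h2
    · simp only [if_true, Bool.and_eq_true, decide_eq_true_eq] at h2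
      simpa using a2 h2.1 h2.2

/-- soundness of the rows of the letters after -/
theorem let_after (h : OneEv iL oL iR oR p mv Pr) {inner : Bool} {k y : ℕ} (hk : k < 6)
    (hy2 : y < 470) (hP : letP true k inner y = true) :
    ¬ V iR oR mv Pr y (if inner then iR k else oR k) := by
  rcases lt_or_ge y 14 with h1 | h1
  · unfold letP at hP
    rw [if_pos h1] at hP
    by_cases h12 : y < 12
    · rw [if_pos h12] at hP
      simp only [Bool.true_and, Bool.or_eq_true, beq_iff_eq] at hP
      -- the letter entry `y`
      have key : ∀ j < 6, (y = j ∨ y = j + 6) →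
          (iR k ≠ iR j ∧ iR k ≠ oR j ∧ oR k ≠ iR j ∧ oR k ≠ oR j) →
          ¬ V iR oR mv Pr y (if inner then iR k else oR k) := by
        intro j hj hy hne
        rcases hy with rfl | rfl
        · rw [V_in hj]
          cases inner
          · simpa using fun e => hne.2.2.1 e.symm
          · simpa using fun e => hne.1 e.symm
        · rw [V_out hj]
          cases inner
          · simpa using fun e => hne.2.2.2 e.symm
          · simpa using fun e => hne.2.1 e.symm
      rcases hP with h2 | h2 | h2
      · cases inner
        · have : y = k := by simpa using h2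
          rw [this, V_in hk]
          simpa using h.io k hk
        · have : y = k + 6 := by simpa using h2
          rw [this, V_out hk]
          simpa using (h.io k hk).symm
      · exact key ((k + 1) % 6) (Nat.mod_lt _ (by norm_num)) (by omega) (h.sixty k hk)
      · have h3 := h.sixty ((k + 5) % 6) (Nat.mod_lt _ (by norm_num))
        have e : ((k + 5) % 6 + 1) % 6 = k := by omega
        rw [e] at h3
        obtain ⟨a, b, c, d⟩ := h3
        exact key ((k + 5) % 6) (Nat.mod_lt _ (by norm_num)) (by omega)
          ⟨a.symm, c.symm, b.symm, d.symm⟩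
    · rw [if_neg h12] at hP
      exact absurd hP (by simp)
  · rw [V_germ h1]
    exact let_germ h hk h1 hy2 hP

/-- soundness of the rows of the letters before -/
theorem let_before (h : OneEv iL oL iR oR p mv Pr) {inner : Bool} {k y : ℕ} (hk : k < 6)
    (hy2 : y < 470) (hP : letP false k inner y = true) :
    ¬ V iR oR mv Pr y (if inner then iL k else oL k) := by
  rcases lt_or_ge y 14 with h1 | h1
  · unfold letP at hP
    rw [if_pos h1] at hP
    by_cases h12 : y < 12
    · rw [if_pos h12] at hP
      simp only [Bool.false_and, Bool.or_false, beq_iff_eq] at hP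
      cases inner
      · have : y = k := by simpa using hP
        rw [this, V_in hk]
        simpa using (h.swap k hk).2.symm
      · have : y = k + 6 := by simpa using hP
        rw [this, V_out hk]
        simpa using (h.swap k hk).1.symm
    · rw [if_neg h12] at hP
      exact absurd hP (by simp)
  · rw [V_germ h1]
    exact let_germ h hk h1 hy2 hP

/-- **soundness of the rows** -/
theorem row_sound (h : OneEv iL oL iR oR p mv Pr) {x y : ℕ} (hx : x < 470) (hy : y < 470)
    (hP : rowP x y = true) {c : Fin 6} (hc : ∀ c', c' ≠ c → ¬ V iR oR mv Pr x c') :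
    ¬ V iR oR mv Pr y c := by
  unfold rowP at hP
  by_cases h6 : x < 6
  · rw [if_pos h6] at hP
    have h1 := let_after h h6 hy hP
    have h2 : iR x = c := by
      by_contra hne
      exact hc _ hne ((V_in h6 _).2 rfl)
    rw [if_pos rfl, h2] at h1
    exact h1
  rw [if_neg h6] at hP
  by_cases h12 : x < 12
  · rw [if_pos h12] at hP
    have h1 := let_after h (k := x - 6) (by omega) hy hP
    have h2 : oR (x - 6) = c := by
      by_contra hne
      refine hc _ hne ?_
      have := (V_out (iR := iR) (oR := oR) (mv := mv) (Pr := Pr) (k := x - 6) (by omega)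
        (oR (x - 6))).2 rfl
      rwa [show x - 6 + 6 = x by omega] at this
    rw [if_neg (by simp), h2] at h1
    exact h1
  · rw [if_neg h12] at hP
    by_cases h14 : x < 14
    · rw [if_pos h14] at hP; exact absurd hP (by simp)
    · rw [if_neg h14] at hP
      by_cases hy14 : y < 14
      · rw [if_pos hy14] at hP; exact absurd hP (by simp)
      · rw [if_neg hy14] at hP
        simp only [List.any_eq_true, List.mem_range, Bool.and_eq_true, beq_iff_eq, Bool.or_eq_true,
          bne_iff_ne, ne_eq] at hP
        obtain ⟨d, hd, h1, h2⟩ := hP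
        rw [V_germ (by omega)]
        intro hPr
        obtain ⟨c', h3, h4⟩ := h.r1 ((x - 14) / 24) (by omega) d hd ((x - 14) % 24)
          (Nat.mod_lt _ (by norm_num)) ((y - 14) % 24) (Nat.mod_lt _ (by norm_num)) _ h1 h2 c hPr
        exact hc c' h3 ((V_germ (by omega) c').2 h4)

/-- soundness of the hull rows -/
theorem hull_sound (h : OneEv iL oL iR oR p mv Pr) {b : Bool} {c : Fin 6} (hb : mv c = b) {y : ℕ}
    (hP : hullP b (p c) y = true) : ¬ V iR oR mv Pr y c := by
  unfold hullP at hP
  by_cases h6 : y < 6
  · rw [if_pos h6] at hP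
    rw [V_in h6]
    intro e
    have h3 := h.wI y h6
    rw [e, hb] at h3
    rw [h3] at hP
    exact absurd hP (by simp)
  rw [if_neg h6] at hP
  by_cases h12 : y < 12
  · rw [if_pos h12] at hP
    have := V_out (iR := iR) (oR := oR) (mv := mv) (Pr := Pr) (k := y - 6) (by omega) c
    rw [show y - 6 + 6 = y by omega] at this
    rw [this]
    intro e
    have h3 := h.wO (y - 6) (by omega)
    rw [e, hb] at h3
    rw [h3] at hP
    exact absurd hP (by simp)
  · rw [if_neg h12] at hP
    by_cases h14 : y < 14
    · rw [if_pos h14] at hP; exact absurd hP (by simp)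
    · rw [if_neg h14] at hP
      simp only [Bool.and_eq_true, beq_iff_eq, Bool.not_eq_true'] at hP
      rw [V_germ (by omega), hP.1]
      intro hPr
      have h3 := h.hull _ (Nat.mod_lt _ (by norm_num)) c hPr
      rw [hb, hP.2] at h3
      exact absurd h3 (by simp)

/-- the entries which are never empty -/
theorem V_ne (h : OneEv iL oL iR oR p mv Pr) {x : ℕ} (hx : x < 470) (h1 : x ≠ 12) (h2 : x ≠ 13) :
    ∃ c, V iR oR mv Pr x c := by
  by_cases h12 : x < 12
  · unfold V
    by_cases h3 : x < 6
    · exact ⟨iR x, by rw [if_pos h12, if_pos h3]⟩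
    · exact ⟨oR (x - 6), by rw [if_pos h12, if_neg h3]⟩
  · obtain ⟨c, hc⟩ := h.ne ((x - 14) / 24) (by omega) ((x - 14) % 24) (Nat.mod_lt _ (by norm_num))
    exact ⟨c, (V_germ (by omega) c).2 hc⟩

end sound

end Vale.Agent.P032.H820
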